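import Mathlib

namespace Vale.Agent.H21

open Set

/-- Nested interval construction: for `lam > 1` and `K ≥ 1`, for every `k ≤ K + 1` there are
`1 ≤ a < b ≤ 2` and `N` such that for all `τ ∈ [a,b]` and all `i < k` some `m < N` and `j : ℤ`
satisfy `i / K ≤ τ * lam ^ m - j ≤ (i + 1) / K`. -/
theorem orbit_targets (lam : ℝ) (hlam : 1 < lam) (K : ℕ) (hK : 0 < K) :
    ∀ k : ℕ, k ≤ K + 1 → ∃ a b : ℝ, 1 ≤ a ∧ a < b ∧ b ≤ 2 ∧ ∃ N : ℕ,
      ∀ τ ∈ Icc a b, ∀ i < k, ∃ m < N, ∃ j : ℤ,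
        (i : ℝ) / K ≤ τ * lam ^ m - j ∧ τ * lam ^ m - j ≤ ((i : ℝ) + 1) / K := by
  intro k
  induction k with
  | zero =>
    intro _
    exact ⟨1, 2, le_refl _, by norm_num, le_refl _, 0, by intro τ _ i hi; omega⟩
  | succ k ih =>
    intro hk
    obtain ⟨a, b, ha, hab, hb, N, hN⟩ := ih (by omega)
    have hKpos : (0 : ℝ) < K := by exact_mod_cast hK
    have hba : 0 < b - a := sub_pos.mpr hab
    obtain ⟨m0, hm0⟩ := pow_unbounded_of_one_lt (3 / (b - a)) hlam
    set m := max m0 N with hm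
    have hpow : 3 / (b - a) < lam ^ m :=
      lt_of_lt_of_le hm0 (pow_le_pow_right₀ hlam.le (le_max_left _ _))
    have hlen : 3 < lam ^ m * (b - a) := by
      rwa [div_lt_iff₀ hba] at hpow
    have hlampos : 0 < lam ^ m := pow_pos (by linarith) m
    set j : ℤ := ⌈a * lam ^ m⌉ with hj
    have hj1 : a * lam ^ m ≤ j := Int.le_ceil _
    have hj2 : (j : ℝ) < a * lam ^ m + 1 := Int.ceil_lt_add_one _
    have hkK : ((k : ℝ) + 1) / K ≤ 2 := by
      rw [div_le_iff₀ hKpos]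
      have h1 : (k : ℝ) ≤ K := by exact_mod_cast (by omega : k ≤ K)
      have h2 : (1 : ℝ) ≤ K := by exact_mod_cast hK
      linarith
    have hk0 : (0 : ℝ) ≤ (k : ℝ) / K := by positivity
    have hkk : (k : ℝ) / K < ((k : ℝ) + 1) / K := by
      apply div_lt_div_of_pos_right _ hKpos
      linarith
    have ha' : a ≤ (j + (k : ℝ) / K) / lam ^ m := by
      rw [le_div_iff₀ hlampos]; linarith
    have hb' : (j + ((k : ℝ) + 1) / K) / lam ^ m ≤ b := by
      rw [div_le_iff₀ hlampos]; nlinarith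
    have hab' : (j + (k : ℝ) / K) / lam ^ m < (j + ((k : ℝ) + 1) / K) / lam ^ m := by
      apply div_lt_div_of_pos_right _ hlampos
      linarith
    refine ⟨(j + (k : ℝ) / K) / lam ^ m, (j + ((k : ℝ) + 1) / K) / lam ^ m,
      le_trans ha ha', hab', le_trans hb' hb, m + 1, ?_⟩
    intro τ hτ i hi
    rcases Nat.lt_succ_iff_lt_or_eq.mp hi with hlt | heq
    · obtain ⟨m', hm', j', hj'⟩ := hN τ ⟨le_trans ha' hτ.1, le_trans hτ.2 hb'⟩ i hlt
      exact ⟨m', lt_of_lt_of_le hm' (le_trans (le_max_right _ _) (Nat.le_succ _)), j', hj'⟩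
    · subst heq
      refine ⟨m, Nat.lt_succ_self _, j, ?_, ?_⟩
      · have := hτ.1
        rw [div_le_iff₀ hlampos] at this
        linarith
      · have := hτ.2
        rw [le_div_iff₀ hlampos] at this
        linarith

/-- For `lam > 1` and `ε > 0` there are `τ ∈ [1,2]` and `N` such that the finite orbit segment
`τ * lam ^ m`, `m < N`, meets every open arc of length `ε` modulo one. -/
theorem orbit_dense (lam : ℝ) (hlam : 1 < lam) (ε : ℝ) (hε : 0 < ε) :
    ∃ τ : ℝ, 1 ≤ τ ∧ τ ≤ 2 ∧ ∃ N : ℕ, ∀ y : ℝ, ∃ m < N, ∃ j : ℤ,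
      y < τ * lam ^ m - j ∧ τ * lam ^ m - j < y + ε := by
  obtain ⟨K, hK⟩ := exists_nat_gt (3 / ε)
  have hKpos : (0 : ℝ) < K := lt_trans (by positivity) hK
  have hK0 : 0 < K := by exact_mod_cast hKpos
  have h3 : 3 / (K : ℝ) < ε := by
    rw [div_lt_iff₀ hKpos]
    rw [div_lt_iff₀ hε] at hK
    linarith
  obtain ⟨a, b, ha, hab, hb, N, hN⟩ := orbit_targets lam hlam K hK0 (K + 1) le_rfl
  refine ⟨a, ha, by linarith, N, ?_⟩
  intro y
  set v := Int.fract y with hv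
  have hv0 : 0 ≤ v := Int.fract_nonneg y
  have hv1 : v < 1 := Int.fract_lt_one y
  have hvK0 : 0 ≤ v * K := by positivity
  set i := ⌊v * K⌋₊ + 1 with hi
  have hfl : (⌊v * K⌋₊ : ℝ) ≤ v * K := Nat.floor_le hvK0
  have hfl2 : v * K < (⌊v * K⌋₊ : ℝ) + 1 := Nat.lt_floor_add_one _
  have hiK : i < K + 1 := by
    have : ⌊v * K⌋₊ < K := by
      rw [Nat.floor_lt hvK0]
      nlinarith
    omega
  obtain ⟨m, hm, j0, hj1, hj2⟩ := hN a ⟨le_rfl, hab.le⟩ i hiK
  have hicast : (i : ℝ) = (⌊v * K⌋₊ : ℝ) + 1 := by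
    rw [hi]; push_cast; ring
  have hlow : v < (i : ℝ) / K := by
    rw [lt_div_iff₀ hKpos, hicast]; exact hfl2
  have hupp : ((i : ℝ) + 1) / K ≤ v + 2 / K := by
    rw [div_le_iff₀ hKpos, hicast]
    have : (v + 2 / (K : ℝ)) * K = v * K + 2 := by field_simp
    rw [this]; linarith
  have hy : y = v + ⌊y⌋ := by rw [hv]; exact (Int.fract_add_floor y).symm
  refine ⟨m, hm, j0 - ⌊y⌋, ?_, ?_⟩
  · push_cast
    have : (2 : ℝ) / K < ε := by
      have : (2 : ℝ) / K ≤ 3 / K := by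
        apply div_le_div_of_nonneg_right _ hKpos.le; norm_num
      linarith
    linarith
  · push_cast
    have : (2 : ℝ) / K < ε := by
      have : (2 : ℝ) / K ≤ 3 / K := by
        apply div_le_div_of_nonneg_right _ hKpos.le; norm_num
      linarith
    linarith

end Vale.Agent.H21
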