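import Mathlib
import Vale.Agent.H21.OrbitDense

namespace Vale.Agent.H21

open Set MeasureTheory

/-- The periodic open set `⋃ j : ℤ, (j d, j d + ε d)`. -/
def gapSet (d ε : ℝ) : Set ℝ := {y | ∃ j : ℤ, (j : ℝ) * d < y ∧ y < j * d + ε * d}

theorem gapSet_eq_iUnion (d ε : ℝ) :
    gapSet d ε = ⋃ j : ℤ, Ioo ((j : ℝ) * d) (j * d + ε * d) := by
  ext y
  simp [gapSet]

theorem isOpen_gapSet (d ε : ℝ) : IsOpen (gapSet d ε) := by
  rw [gapSet_eq_iUnion]
  exact isOpen_iUnion fun _ => isOpen_Ioo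

/-- Single scale: a periodic gap set of density `ε` that meets every translate of `s * q ^ n`. -/
theorem single_scale (q : ℝ) (hq0 : 0 < q) (hq1 : q < 1) (s : ℝ) (hs : s ≠ 0) (ε : ℝ)
    (hε : 0 < ε) :
    ∃ d : ℝ, 0 < d ∧ d ≤ 1 ∧ ∀ x : ℝ, ∃ n : ℕ, 1 ≤ n ∧ x + s * q ^ n ∈ gapSet d ε := by
  have hlam : 1 < q⁻¹ := (one_lt_inv₀ hq0).mpr hq1
  obtain ⟨τ, hτ1, hτ2, N, hN⟩ := orbit_dense q⁻¹ hlam ε hε
  have hσ : 0 < |s| := abs_pos.mpr hs
  obtain ⟨N0, hN0⟩ := exists_pow_lt_of_lt_one (inv_pos.mpr hσ) hq1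
  set N' := max N N0 with hN'
  have hqN' : q ^ N' ≤ q ^ N0 := pow_le_pow_of_le_one hq0.le hq1.le (le_max_right _ _)
  have hqN'pos : 0 < q ^ N' := pow_pos hq0 _
  have hτpos : 0 < τ := by linarith
  set d := |s| * q ^ N' / τ with hd
  have hdpos : 0 < d := by positivity
  have hd1 : d ≤ 1 := by
    rw [hd, div_le_one hτpos]
    have h1 : |s| * q ^ N' ≤ |s| * q ^ N0 := mul_le_mul_of_nonneg_left hqN' hσ.le
    have h2 : |s| * q ^ N0 < 1 := by
      have := mul_lt_mul_of_pos_left hN0 hσ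
      rwa [mul_inv_cancel₀ hσ.ne'] at this
    linarith
  refine ⟨d, hdpos, hd1, ?_⟩
  intro x
  -- key identity: |s| * q ^ (N' - m) = d * (τ * (q⁻¹) ^ m) for m ≤ N'
  have key : ∀ m : ℕ, m ≤ N' → |s| * q ^ (N' - m) = d * (τ * q⁻¹ ^ m) := by
    intro m hm
    have hqm : q ^ m ≠ 0 := (pow_pos hq0 m).ne'
    have : q ^ (N' - m) * q ^ m = q ^ N' := by
      rw [← pow_add, Nat.sub_add_cancel hm]
    rw [hd, inv_pow, ← this]
    field_simp
  rcases lt_or_gt_of_ne hs with hneg | hpos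
  · -- s < 0
    obtain ⟨m, hm, j, hj1, hj2⟩ := hN (x / d - ε)
    have hmN' : m ≤ N' := le_trans hm.le (le_max_left _ _)
    refine ⟨N' - m, ?_, -j, ?_, ?_⟩
    · have : m < N' := lt_of_lt_of_le hm (le_max_left _ _)
      omega
    · have hk := key m hmN'
      rw [abs_of_neg hneg] at hk
      have hx : x = x / d * d := by field_simp
      have e1 : s * q ^ (N' - m) = -(d * (τ * q⁻¹ ^ m)) := by linarith
      rw [e1]
      push_cast
      nlinarith
    · have hk := key m hmN'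
      rw [abs_of_neg hneg] at hk
      have hx : x = x / d * d := by field_simp
      have e1 : s * q ^ (N' - m) = -(d * (τ * q⁻¹ ^ m)) := by linarith
      rw [e1]
      push_cast
      nlinarith
  · -- s > 0
    obtain ⟨m, hm, j, hj1, hj2⟩ := hN (-(x / d))
    have hmN' : m ≤ N' := le_trans hm.le (le_max_left _ _)
    refine ⟨N' - m, ?_, j, ?_, ?_⟩
    · have : m < N' := lt_of_lt_of_le hm (le_max_left _ _)
      omega
    · have hk := key m hmN'
      rw [abs_of_pos hpos] at hk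
      have hx : x = x / d * d := by field_simp
      rw [hk]
      nlinarith
    · have hk := key m hmN'
      rw [abs_of_pos hpos] at hk
      have hx : x = x / d * d := by field_simp
      rw [hk]
      nlinarith

/-- The part of the gap set inside `[0,1]` has measure at most `2 ε`. -/
theorem gapSet_measure (d ε : ℝ) (hd0 : 0 < d) (hd1 : d ≤ 1) (hε0 : 0 < ε) (hε1 : ε ≤ 1) :
    volume (gapSet d ε ∩ Icc 0 1) ≤ ENNReal.ofReal (2 * ε) := by
  have hsub : gapSet d ε ∩ Icc 0 1 ⊆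
      ⋃ j ∈ Finset.range (⌊1 / d⌋₊ + 1), Ioo ((j : ℝ) * d) (j * d + ε * d) := by
    rintro y ⟨⟨j, hj1, hj2⟩, hy0, hy1⟩
    have hjpos : 0 ≤ j := by
      by_contra hneg
      have hneg' : j < 0 := not_le.mp hneg
      have : (j : ℝ) ≤ -1 := by exact_mod_cast (by omega : j ≤ -1)
      nlinarith
    have hjd : (j : ℝ) < 1 / d := by
      rw [lt_div_iff₀ hd0]; linarith
    obtain ⟨k, rfl⟩ := Int.eq_ofNat_of_zero_le hjpos
    simp only [Finset.mem_range, mem_iUnion, mem_Ioo, exists_prop]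
    refine ⟨k, ?_, by exact_mod_cast hj1, by exact_mod_cast hj2⟩
    have : k ≤ ⌊1 / d⌋₊ := by
      apply Nat.le_floor
      have : ((k : ℤ) : ℝ) = (k : ℝ) := by norm_cast
      rw [this] at hjd
      exact hjd.le
    omega
  calc volume (gapSet d ε ∩ Icc 0 1)
      ≤ volume (⋃ j ∈ Finset.range (⌊1 / d⌋₊ + 1), Ioo ((j : ℝ) * d) (j * d + ε * d)) :=
        measure_mono hsub
    _ ≤ ∑ j ∈ Finset.range (⌊1 / d⌋₊ + 1), volume (Ioo ((j : ℝ) * d) (j * d + ε * d)) :=
        measure_biUnion_finset_le _ _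
    _ = ∑ j ∈ Finset.range (⌊1 / d⌋₊ + 1), ENNReal.ofReal (ε * d) := by
        apply Finset.sum_congr rfl
        intro j _
        rw [Real.volume_Ioo]
        congr 1
        ring
    _ = ENNReal.ofReal ((⌊1 / d⌋₊ + 1 : ℕ) * (ε * d)) := by
        rw [Finset.sum_const, Finset.card_range, nsmul_eq_mul, ← ENNReal.ofReal_natCast,
          ← ENNReal.ofReal_mul (by positivity)]
    _ ≤ ENNReal.ofReal (2 * ε) := by
        apply ENNReal.ofReal_le_ofReal
        have h1 : (⌊1 / d⌋₊ : ℝ) ≤ 1 / d := Nat.floor_le (by positivity)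
        push_cast
        have h2 : (1 / d) * (ε * d) = ε := by field_simp
        have h3 : ε * d ≤ ε := by nlinarith
        nlinarith [mul_le_mul_of_nonneg_right h1 (by positivity : (0:ℝ) ≤ ε * d)]

end Vale.Agent.H21
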