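import Mathlib
import Vale.Agent.H21.GapSet

namespace Vale.Agent.H21

open Set MeasureTheory Filter Topology

/-- Countably many scales: a compact subset of `[0,1]` of measure at least `1 - ε` containing no
set `x + s * {q ^ n : n ≥ 1}` with `s ∈ S`, `s ≠ 0`. -/
theorem exists_avoiding_countable (q : ℝ) (hq0 : 0 < q) (hq1 : q < 1) (S : Set ℝ)
    (hS : S.Countable) (ε : ℝ) (hε : 0 < ε) :
    ∃ E : Set ℝ, IsCompact E ∧ E ⊆ Icc 0 1 ∧ ENNReal.ofReal (1 - ε) ≤ volume E ∧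
      ∀ s ∈ S, s ≠ 0 → ∀ x : ℝ, ∃ n : ℕ, 1 ≤ n ∧ x + s * q ^ n ∉ E := by
  rcases S.eq_empty_or_nonempty with hSe | hSne
  · subst hSe
    refine ⟨Icc 0 1, isCompact_Icc, le_rfl, ?_, by simp⟩
    rw [Real.volume_Icc]
    apply ENNReal.ofReal_le_ofReal
    linarith
  obtain ⟨f, hf⟩ := hS.exists_eq_range hSne
  set ε0 := min ε 1 with hε0
  have hε0pos : 0 < ε0 := lt_min hε one_pos
  have hε0le : ε0 ≤ 1 := min_le_right _ _
  set e : ℕ → ℝ := fun i => ε0 / 4 / 2 ^ i with he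
  have hepos : ∀ i, 0 < e i := fun i => by positivity
  have hele : ∀ i, e i ≤ 1 := by
    intro i
    have h1 : (1 : ℝ) ≤ 2 ^ i := one_le_pow₀ (by norm_num)
    have h2 : ε0 / 4 / 2 ^ i ≤ ε0 / 4 / 1 :=
      div_le_div_of_nonneg_left (by positivity) one_pos h1
    simp only [he]
    linarith
  have hex : ∀ i, ∃ d : ℝ, 0 < d ∧ d ≤ 1 ∧
      (f i ≠ 0 → ∀ x : ℝ, ∃ n : ℕ, 1 ≤ n ∧ x + f i * q ^ n ∈ gapSet d (e i)) := by
    intro i
    by_cases hfi : f i = 0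
    · exact ⟨1, one_pos, le_rfl, fun h => absurd hfi h⟩
    · obtain ⟨d, hd0, hd1, hd⟩ := single_scale q hq0 hq1 (f i) hfi (e i) (hepos i)
      exact ⟨d, hd0, hd1, fun _ => hd⟩
  choose d hd0 hd1 hd using hex
  refine ⟨Icc 0 1 \ ⋃ i, gapSet (d i) (e i), ?_, sdiff_subset, ?_, ?_⟩
  · exact isCompact_Icc.diff (isOpen_iUnion fun i => isOpen_gapSet _ _)
  · have hcover : Icc (0 : ℝ) 1 ⊆ (Icc 0 1 \ ⋃ i, gapSet (d i) (e i)) ∪
        ⋃ i, (gapSet (d i) (e i) ∩ Icc 0 1) := by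
      intro y hy
      by_cases h : y ∈ ⋃ i, gapSet (d i) (e i)
      · right
        obtain ⟨i, hi⟩ := mem_iUnion.mp h
        exact mem_iUnion.mpr ⟨i, hi, hy⟩
      · left; exact ⟨hy, h⟩
    have hsum : ∑' i, ENNReal.ofReal (2 * e i) = ENNReal.ofReal ε0 := by
      have h2 : ∀ i, 2 * e i = ε0 / 2 / 2 ^ i := by
        intro i; simp only [he]; ring
      simp_rw [h2]
      rw [← ENNReal.ofReal_tsum_of_nonneg (fun i => by positivity) (summable_geometric_two' ε0),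
        tsum_geometric_two' ε0]
    have hU : volume (⋃ i, (gapSet (d i) (e i) ∩ Icc 0 1)) ≤ ENNReal.ofReal ε := by
      calc volume (⋃ i, (gapSet (d i) (e i) ∩ Icc 0 1))
          ≤ ∑' i, volume (gapSet (d i) (e i) ∩ Icc 0 1) := measure_iUnion_le _
        _ ≤ ∑' i, ENNReal.ofReal (2 * e i) :=
            ENNReal.tsum_le_tsum fun i => gapSet_measure _ _ (hd0 i) (hd1 i) (hepos i) (hele i)
        _ = ENNReal.ofReal ε0 := hsum
        _ ≤ ENNReal.ofReal ε := ENNReal.ofReal_le_ofReal (min_le_left _ _)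
    have h1 : volume (Icc (0 : ℝ) 1) ≤
        volume (Icc 0 1 \ ⋃ i, gapSet (d i) (e i)) + ENNReal.ofReal ε :=
      calc volume (Icc (0 : ℝ) 1) ≤ volume ((Icc 0 1 \ ⋃ i, gapSet (d i) (e i)) ∪
            ⋃ i, (gapSet (d i) (e i) ∩ Icc 0 1)) := measure_mono hcover
        _ ≤ volume (Icc 0 1 \ ⋃ i, gapSet (d i) (e i)) +
            volume (⋃ i, (gapSet (d i) (e i) ∩ Icc 0 1)) := measure_union_le _ _
        _ ≤ volume (Icc 0 1 \ ⋃ i, gapSet (d i) (e i)) + ENNReal.ofReal ε := by gcongr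
    rw [Real.volume_Icc, sub_zero] at h1
    rw [ENNReal.ofReal_sub 1 hε.le]
    exact tsub_le_iff_right.mpr h1
  · intro s hs hs0 x
    rw [hf] at hs
    obtain ⟨i, rfl⟩ := hs
    obtain ⟨n, hn1, hn⟩ := hd i hs0 x
    exact ⟨n, hn1, fun hmem => hmem.2 (mem_iUnion.mpr ⟨i, hn⟩)⟩

/-- For a compact `E`, the set of scales `s ≠ 0` for which `E` contains some `x + s * q ^ n`,
`n ≥ 1`, is closed up to the point `0`. -/
theorem closure_scales_subset (q : ℝ) (E : Set ℝ) (hE : IsCompact E) :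
    closure {s : ℝ | s ≠ 0 ∧ ∃ x : ℝ, ∀ n : ℕ, 1 ≤ n → x + s * q ^ n ∈ E} ⊆
      {s : ℝ | s ≠ 0 ∧ ∃ x : ℝ, ∀ n : ℕ, 1 ≤ n → x + s * q ^ n ∈ E} ∪ {0} := by
  intro s hs
  by_cases hs0 : s = 0
  · right; exact hs0
  left
  refine ⟨hs0, ?_⟩
  obtain ⟨u, hu, hulim⟩ := mem_closure_iff_seq_limit.mp hs
  choose hu0 x hx using hu
  obtain ⟨y, hyE, φ, hφ, hφlim⟩ := hE.tendsto_subseq (fun k => hx k 1 le_rfl)
  refine ⟨y - s * q ^ 1, ?_⟩
  intro n hn
  have hlim : Tendsto (fun k => x (φ k) + u (φ k) * q ^ n) atTop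
      (𝓝 (y - s * q ^ 1 + s * q ^ n)) := by
    have h1 : Tendsto (fun k => u (φ k)) atTop (𝓝 s) := hulim.comp hφ.tendsto_atTop
    have h2 : Tendsto (fun k => (x (φ k) + u (φ k) * q ^ 1) - u (φ k) * q ^ 1 +
        u (φ k) * q ^ n) atTop (𝓝 (y - s * q ^ 1 + s * q ^ n)) :=
      (hφlim.sub (h1.mul_const _)).add (h1.mul_const _)
    refine h2.congr ?_
    intro k
    ring
  exact hE.isClosed.mem_of_tendsto hlim (Eventually.of_forall fun k => hx (φ k) n hn)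

end Vale.Agent.H21
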