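import Mathlib

namespace Vale.Agent.H21

open Finset

/-- A finite family whose values under an injective natural-valued map lie in a window of
width `N` has at most `N` members. -/
theorem card_le_of_nat_window {α : Type*} (S : Finset α) (g : α → ℕ) (N : ℕ)
    (hinj : ∀ i ∈ S, ∀ j ∈ S, g i = g j → i = j)
    (hwin : ∀ i ∈ S, ∀ j ∈ S, g j < g i + N) : S.card ≤ N := by
  rcases S.eq_empty_or_nonempty with h | h
  · simp [h]
  · obtain ⟨i0, hi0, hmin⟩ := S.exists_min_image g h
    have hcard : S.card ≤ (Finset.Ico (g i0) (g i0 + N)).card := by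
      apply Finset.card_le_card_of_injOn g
      · intro i hi
        simp only [Finset.coe_Ico, Set.mem_Ico]
        exact ⟨hmin i hi, hwin i0 hi0 i hi⟩
      · intro i hi j hj hij
        exact hinj i hi j hj hij
    simpa using hcard

/-- A finite family of reals that is `P`-separated and lies in an open window of length
`N * P` has at most `N` members. -/
theorem card_le_of_sep {α : Type*} (S : Finset α) (v : α → ℝ) (lo P : ℝ) (N : ℕ)
    (hP : 0 < P) (hwin : ∀ i ∈ S, lo < v i ∧ v i < lo + N * P)
    (hsep : ∀ i ∈ S, ∀ j ∈ S, i ≠ j → P ≤ |v i - v j|) : S.card ≤ N := by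
  have hcard : S.card ≤ (Finset.range N).card := by
    apply Finset.card_le_card_of_injOn (fun i => ⌊(v i - lo) / P⌋₊)
    · intro i hi
      have h1 := hwin i hi
      simp only [Finset.coe_range, Set.mem_Iio]
      rw [Nat.floor_lt (div_nonneg (by linarith) hP.le), div_lt_iff₀ hP]
      linarith
    · intro i hi j hj hij
      by_contra hne
      have h1 := hwin i hi
      have h2 := hwin j hj
      have hs := hsep i hi j hj hne
      simp only at hij
      have hi0 : 0 ≤ (v i - lo) / P := div_nonneg (by linarith) hP.le
      have hj0 : 0 ≤ (v j - lo) / P := div_nonneg (by linarith) hP.le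
      have a1 := Nat.floor_le hi0
      have a2 := Nat.lt_floor_add_one ((v i - lo) / P)
      have b1 := Nat.floor_le hj0
      have b2 := Nat.lt_floor_add_one ((v j - lo) / P)
      rw [hij] at a1 a2
      have hlt : |(v i - lo) / P - (v j - lo) / P| < 1 := by
        rw [abs_lt]; constructor <;> linarith
      have e : (v i - lo) / P - (v j - lo) / P = (v i - v j) / P := by ring
      rw [e, abs_div, abs_of_pos hP, div_lt_one hP] at hlt
      linarith
  simpa using hcard

theorem ite_le_add_ite (A B C : Prop) [Decidable A] [Decidable B] [Decidable C] (c : ℝ)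
    (hc : 0 ≤ c) (h : A → B ∨ C) :
    (if A then c else 0) ≤ (if B then c else 0) + (if C then c else 0) := by
  have hB : 0 ≤ (if B then c else 0) := by split_ifs <;> simp [hc]
  have hC : 0 ≤ (if C then c else 0) := by split_ifs <;> simp [hc]
  by_cases hA : A
  · rcases h hA with h1 | h1
    · rw [if_pos hA, if_pos h1]; linarith
    · rw [if_pos hA, if_pos h1]; linarith
  · rw [if_neg hA]; linarith

theorem four_pow_sq (t : ℕ) : ((4:ℝ) ^ t) ^ 2 = 16 ^ t := by
  rw [← pow_mul, mul_comm, pow_mul]; norm_num

/-- Nested-interval potential lemma.  A finite family of open gaps `(u i - r i, u i + r i)` with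
periods `Pi i` and weights `W i`; if the initial potential is at most `1/4` and at each stage the
newly visible gaps contribute at most `1/8`, some point of `[a, a + L]` avoids every gap. -/
theorem potential_nested {ι : Type*} (F : Finset ι) (u r Pi W : ι → ℝ) (a L : ℝ)
    (hL : 0 < L)
    (hW : ∀ i ∈ F, 0 < W i)
    (hPi : ∀ i ∈ F, 0 < Pi i)
    (hWr : ∀ i ∈ F, 2 * r i ≤ L * (W i) ^ 2)
    (hinit : ∑ i ∈ F, (if (L ≤ Pi i ∧ u i - r i < a + L ∧ a < u i + r i) then W i else 0)
      ≤ 1 / 4)
    (hstep : ∀ (t : ℕ) (b : ℝ), a ≤ b → b + L / 16 ^ (t + 1) ≤ a + L →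
      ∑ i ∈ F, (if (L / 16 ^ (t + 1) ≤ Pi i ∧ Pi i < L / 16 ^ t ∧
        u i - r i < b + L / 16 ^ (t + 1) ∧ b < u i + r i) then W i * 4 ^ (t + 1) else 0)
        ≤ 1 / 8) :
    ∃ s, a ≤ s ∧ s ≤ a + L ∧ ∀ i ∈ F, r i ≤ |s - u i| := by
  have key : ∀ t : ℕ, ∃ b, a ≤ b ∧ b + L / 16 ^ t ≤ a + L ∧
      ∑ i ∈ F, (if (L / 16 ^ t ≤ Pi i ∧ u i - r i < b + L / 16 ^ t ∧ b < u i + r i)
        then W i * 4 ^ t else 0) ≤ 1 / 4 := by
    intro t
    induction t with
    | zero => exact ⟨a, le_refl a, by simp, by simpa using hinit⟩
    | succ t ih =>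
      obtain ⟨b, hab, hbL, hΦ⟩ := ih
      have hh : (0:ℝ) < L / 16 ^ t := by positivity
      have hsucc : L / 16 ^ (t + 1) = L / 16 ^ t / 16 := by rw [pow_succ]; field_simp
      have h4 : (4:ℝ) ^ (t + 1) = 4 * 4 ^ t := by rw [pow_succ]; ring
      have hE : (0:ℝ) < 4 ^ t := by positivity
      generalize hhdef : L / 16 ^ t = h at *
      have hsumO : ∑ j ∈ Finset.range 16, ∑ i ∈ F,
          (if (h ≤ Pi i ∧ u i - r i < (b + j * (h / 16)) + h / 16 ∧
            b + j * (h / 16) < u i + r i) then W i * 4 ^ (t + 1) else 0)
          ≤ ∑ j ∈ Finset.range 16, (1 / 8 : ℝ) := by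
        rw [Finset.sum_comm]
        calc ∑ i ∈ F, ∑ j ∈ Finset.range 16,
              (if (h ≤ Pi i ∧ u i - r i < (b + j * (h / 16)) + h / 16 ∧
                b + j * (h / 16) < u i + r i) then W i * 4 ^ (t + 1) else 0)
            ≤ ∑ i ∈ F, 8 * (if (h ≤ Pi i ∧ u i - r i < b + h ∧ b < u i + r i)
                then W i * 4 ^ t else 0) := by
              apply Finset.sum_le_sum
              intro i hi
              have hWi := hW i hi
              by_cases hc : (h ≤ Pi i ∧ u i - r i < b + h ∧ b < u i + r i)
              · rw [if_pos hc]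
                have hterm : W i * 4 ^ t ≤ 1 / 4 := by
                  have h1 := Finset.single_le_sum (f := fun i => if (h ≤ Pi i ∧
                    u i - r i < b + h ∧ b < u i + r i) then W i * 4 ^ t else 0)
                    (fun j hj => by
                      have := hW j hj
                      split_ifs
                      · positivity
                      · exact le_refl 0) hi
                  simp only [if_pos hc] at h1
                  linarith
                have hr2 : 2 * r i ≤ h / 16 := by
                  have hX : 0 ≤ W i * 4 ^ t := by positivity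
                  have hsq : (W i * 4 ^ t) ^ 2 ≤ 1 / 16 := by nlinarith
                  have e16 := four_pow_sq t
                  have hr := hWr i hi
                  rw [← hhdef, ← e16, div_div, le_div_iff₀ (by positivity)]
                  have h5 : 2 * r i * ((4 ^ t) ^ 2 * 16) ≤ L * (W i) ^ 2 * ((4 ^ t) ^ 2 * 16) :=
                    mul_le_mul_of_nonneg_right hr (by positivity)
                  have h6 : L * (W i * 4 ^ t) ^ 2 ≤ L * (1 / 16) :=
                    mul_le_mul_of_nonneg_left hsq hL.le
                  nlinarith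
                have hcard : ((Finset.range 16).filter (fun j : ℕ =>
                    u i - r i < (b + j * (h / 16)) + h / 16 ∧
                    b + j * (h / 16) < u i + r i)).card ≤ 2 := by
                  apply card_le_of_nat_window _ id 2 (fun _ _ _ _ hij => hij)
                  intro j hj j' hj'
                  have hj1 := (Finset.mem_filter.mp hj).2.1
                  have hj2 := (Finset.mem_filter.mp hj').2.2
                  by_contra hge
                  have hge' : (j:ℝ) + 2 ≤ (j':ℝ) := by exact_mod_cast not_lt.mp hge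
                  have : ((j:ℝ) + 2) * (h / 16) ≤ (j':ℝ) * (h / 16) :=
                    mul_le_mul_of_nonneg_right hge' (by positivity)
                  simp only [id] at *
                  linarith
                simp only [hc.1, true_and]
                rw [← Finset.sum_filter, Finset.sum_const, nsmul_eq_mul, h4]
                have hcard' : (((Finset.range 16).filter (fun j : ℕ =>
                    u i - r i < (b + j * (h / 16)) + h / 16 ∧
                    b + j * (h / 16) < u i + r i)).card : ℝ) ≤ 2 := by exact_mod_cast hcard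
                have hX : 0 ≤ 4 * (W i * 4 ^ t) := by positivity
                calc _ ≤ 2 * (W i * (4 * 4 ^ t)) := by
                      apply mul_le_mul_of_nonneg_right hcard' (by positivity)
                  _ = 8 * (W i * 4 ^ t) := by ring
              · rw [if_neg hc, mul_zero]
                apply le_of_eq
                apply Finset.sum_eq_zero
                intro j hj
                rw [if_neg]
                intro hcj
                apply hc
                have hj15 : (j:ℝ) ≤ 15 := by
                  have := Finset.mem_range.mp hj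
                  exact_mod_cast Nat.lt_succ_iff.mp this
                have hj0 : (0:ℝ) ≤ (j:ℝ) * (h / 16) := by positivity
                have : (j:ℝ) * (h / 16) ≤ 15 * (h / 16) :=
                  mul_le_mul_of_nonneg_right hj15 (by positivity)
                exact ⟨hcj.1, by linarith [hcj.2.1], by linarith [hcj.2.2]⟩
          _ = 8 * ∑ i ∈ F, (if (h ≤ Pi i ∧ u i - r i < b + h ∧ b < u i + r i)
                then W i * 4 ^ t else 0) := by rw [Finset.mul_sum]
          _ ≤ 8 * (1 / 4) := by linarith
          _ = ∑ j ∈ Finset.range 16, (1 / 8 : ℝ) := by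
              rw [Finset.sum_const, Finset.card_range]; norm_num
      obtain ⟨j, hj, hOj⟩ := Finset.exists_le_of_sum_le (by simp) hsumO
      have hj15 : (j:ℝ) ≤ 15 := by
        have := Finset.mem_range.mp hj
        exact_mod_cast Nat.lt_succ_iff.mp this
      have hj0 : (0:ℝ) ≤ (j:ℝ) * (h / 16) := by positivity
      have hj1 : (j:ℝ) * (h / 16) ≤ 15 * (h / 16) :=
        mul_le_mul_of_nonneg_right hj15 (by positivity)
      have hN := hstep t (b + j * (h / 16)) (by linarith) (by rw [hsucc]; linarith)
      rw [hsucc, hhdef] at hN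
      refine ⟨b + j * (h / 16), by linarith, by rw [hsucc]; linarith, ?_⟩
      rw [hsucc]
      calc ∑ i ∈ F, (if (h / 16 ≤ Pi i ∧ u i - r i < b + j * (h / 16) + h / 16 ∧
              b + j * (h / 16) < u i + r i) then W i * 4 ^ (t + 1) else 0)
          ≤ ∑ i ∈ F, ((if (h ≤ Pi i ∧ u i - r i < (b + j * (h / 16)) + h / 16 ∧
              b + j * (h / 16) < u i + r i) then W i * 4 ^ (t + 1) else 0) +
              (if (h / 16 ≤ Pi i ∧ Pi i < h ∧ u i - r i < b + j * (h / 16) + h / 16 ∧
              b + j * (h / 16) < u i + r i) then W i * 4 ^ (t + 1) else 0)) := by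
            apply Finset.sum_le_sum
            intro i hi
            have hWi := hW i hi
            apply ite_le_add_ite _ _ _ _ (by positivity)
            intro hA
            by_cases h1 : h ≤ Pi i
            · exact Or.inl ⟨h1, hA.2⟩
            · exact Or.inr ⟨hA.1, lt_of_not_ge h1, hA.2⟩
        _ ≤ 1 / 8 + 1 / 8 := by rw [Finset.sum_add_distrib]; exact add_le_add hOj hN
        _ = 1 / 4 := by norm_num
  have hT : ∃ T : ℕ, ∀ i ∈ F, 1 / 4 < W i * 4 ^ T ∧ L / 16 ^ T ≤ Pi i := by
    have hex : ∀ i ∈ F, ∃ n : ℕ, ∀ T, n ≤ T → (1 / 4 < W i * 4 ^ T ∧ L / 16 ^ T ≤ Pi i) := by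
      intro i hi
      obtain ⟨n, hn⟩ := pow_unbounded_of_one_lt (max (1 / (4 * W i)) (L / Pi i))
        (by norm_num : (1:ℝ) < 4)
      refine ⟨n, fun T hT => ?_⟩
      have h4T : (4:ℝ) ^ n ≤ 4 ^ T := pow_le_pow_right₀ (by norm_num) hT
      have h16T : (4:ℝ) ^ T ≤ 16 ^ T := pow_le_pow_left₀ (by norm_num) (by norm_num) T
      have hWi := hW i hi
      have hPii := hPi i hi
      have h1 : 1 / (4 * W i) < 4 ^ T :=
        lt_of_le_of_lt (le_max_left _ _) (lt_of_lt_of_le hn h4T)
      have h2 : L / Pi i < 16 ^ T :=
        lt_of_le_of_lt (le_max_right _ _) (lt_of_lt_of_le hn (h4T.trans h16T))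
      constructor
      · rw [div_lt_iff₀ (by positivity)] at h1; linarith
      · rw [div_le_iff₀ (by positivity)]; rw [div_lt_iff₀ hPii] at h2; linarith
    choose! n hn using hex
    exact ⟨F.sup n, fun i hi => hn i hi _ (Finset.le_sup hi)⟩
  obtain ⟨T, hT⟩ := hT
  obtain ⟨b, hab, hbL, hΦ⟩ := key T
  have hhT : (0:ℝ) < L / 16 ^ T := by positivity
  refine ⟨b, hab, by linarith, fun i hi => ?_⟩
  by_contra hlt
  have hlt := abs_lt.mp (not_le.mp hlt)
  obtain ⟨hW1, hP1⟩ := hT i hi
  have h1 := Finset.single_le_sum (f := fun i => if (L / 16 ^ T ≤ Pi i ∧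
    u i - r i < b + L / 16 ^ T ∧ b < u i + r i) then W i * 4 ^ T else 0)
    (fun j hj => by
      have := hW j hj
      split_ifs
      · positivity
      · exact le_refl 0) hi
  simp only [if_pos (show (L / 16 ^ T ≤ Pi i ∧ u i - r i < b + L / 16 ^ T ∧ b < u i + r i)
    from ⟨hP1, by linarith, by linarith⟩)] at h1
  linarith

end Vale.Agent.H21
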