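import Mathlib
import Vale.Agent.H21.SparsePotential

namespace Vale.Agent.H21

open Finset

/-- Bounding a conditional sum through the fibres of a natural-valued map. -/
theorem sum_ite_le_fiber {α : Type*} (F : Finset α) (g : α → ℕ) (c : α → Prop)
    [DecidablePred c] (w : α → ℝ) (V : ℕ → ℝ) (M : ℕ)
    (hM : ∀ f ∈ F, g f < M)
    (hfib : ∀ m, ∑ f ∈ F.filter (fun f => c f ∧ g f = m), w f ≤ V m) :
    ∑ f ∈ F, (if c f then w f else 0) ≤ ∑ m ∈ Finset.range M, V m := by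
  classical
  rw [← Finset.sum_filter]
  rw [← Finset.sum_fiberwise_of_maps_to (s := F.filter c) (t := Finset.range M) (g := g)
    (fun f hf => Finset.mem_range.mpr (hM f (Finset.mem_filter.mp hf).1))]
  apply Finset.sum_le_sum
  intro m _
  rw [Finset.filter_filter]
  exact hfib m

theorem sum_ite_le_card {α : Type*} (F : Finset α) (g : α → ℕ) (c : α → Prop)
    [DecidablePred c] (w : α → ℝ) (V : ℕ → ℝ) (N : ℕ) (M : ℕ)
    (hM : ∀ f ∈ F, g f < M)
    (hV : ∀ m, 0 ≤ V m)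
    (hw : ∀ f ∈ F, c f → w f ≤ V (g f))
    (hcard : ∀ m, (F.filter (fun f => c f ∧ g f = m)).card ≤ N) :
    ∑ f ∈ F, (if c f then w f else 0) ≤ N * ∑ m ∈ Finset.range M, V m := by
  rw [Finset.mul_sum]
  apply sum_ite_le_fiber F g c w (fun m => N * V m) M hM
  intro m
  calc ∑ f ∈ F.filter (fun f => c f ∧ g f = m), w f
      ≤ ∑ f ∈ F.filter (fun f => c f ∧ g f = m), V m := by
        apply Finset.sum_le_sum
        intro f hf
        obtain ⟨hfF, hcf, hgf⟩ := Finset.mem_filter.mp hf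
        rw [← hgf]; exact hw f hfF hcf
    _ = (F.filter (fun f => c f ∧ g f = m)).card * V m := by
        rw [Finset.sum_const, nsmul_eq_mul]
    _ ≤ N * V m := by
        apply mul_le_mul_of_nonneg_right _ (hV m)
        exact_mod_cast hcard m

theorem term_le_of_partial_sums (q : ℕ → ℝ) (c : ℝ) (hq : ∀ m, 0 ≤ q m)
    (hsum : ∀ M, ∑ m ∈ Finset.range M, q m ≤ c) (m : ℕ) : q m ≤ c := by
  have h1 := Finset.single_le_sum (f := q) (s := Finset.range (m + 1)) (fun j _ => hq j)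
    (Finset.self_mem_range_succ m)
  exact h1.trans (hsum (m + 1))

/-- Choice of the base point: a point of `[0, 1/2]` lying outside every enlarged gap
`(a - q^2 p, a + q^4 p)` of a finite subfamily. -/
theorem exists_margin_point (p q : ℕ → ℝ) (a : ℕ → ℕ → ℝ)
    (hp : ∀ m, 0 < p m ∧ p m ≤ 1) (hq : ∀ m, 0 ≤ q m)
    (hsep : ∀ m k k', k ≠ k' → p m ≤ |a m k - a m k'|)
    (hsum : ∀ M, ∑ m ∈ Finset.range M, q m ≤ 1 / 100)
    (P : Finset (ℕ × ℕ)) :
    ∃ x, 0 ≤ x ∧ x ≤ 1 / 2 ∧ ∀ e ∈ P,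
      (x ≤ a e.1 e.2 - q e.1 ^ 2 * p e.1 ∨ a e.1 e.2 + q e.1 ^ 4 * p e.1 ≤ x) := by
  classical
  by_contra hno
  have hno' : ∀ x, 0 ≤ x → x ≤ 1 / 2 → ∃ e ∈ P,
      a e.1 e.2 - q e.1 ^ 2 * p e.1 < x ∧ x < a e.1 e.2 + q e.1 ^ 4 * p e.1 := by
    intro x hx0 hx1
    by_contra hcon
    apply hno
    refine ⟨x, hx0, hx1, fun e he => ?_⟩
    by_contra hcon2
    apply hcon
    refine ⟨e, he, ?_, ?_⟩
    · by_contra h3; exact hcon2 (Or.inl (not_lt.mp h3))
    · by_contra h3; exact hcon2 (Or.inr (not_lt.mp h3))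
  have hq1 : ∀ m, q m ≤ 1 / 100 := term_le_of_partial_sums q _ hq hsum
  obtain ⟨M, hM⟩ : ∃ M, ∀ e ∈ P, e.1 < M :=
    ⟨P.sup (fun e => e.1) + 1, fun e he =>
      Nat.lt_succ_of_le (Finset.le_sup (f := fun e : ℕ × ℕ => e.1) he)⟩
  let lo : ℕ × ℕ → ℝ := fun e => a e.1 e.2 - q e.1 ^ 2 * p e.1
  let hi : ℕ × ℕ → ℝ := fun e => a e.1 e.2 + q e.1 ^ 4 * p e.1
  let c : ℕ × ℕ → Prop := fun e => lo e < 1 / 2 ∧ 0 < hi e
  have hlen : ∀ e, 0 ≤ hi e - lo e := by
    intro e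
    obtain ⟨h1, _⟩ := hp e.1
    have h2 := hq e.1
    have : 0 ≤ q e.1 ^ 4 * p e.1 + q e.1 ^ 2 * p e.1 := by positivity
    simp only [hi, lo]; linarith
  have hcover : Set.Icc (0:ℝ) (1 / 2) ⊆ ⋃ e ∈ P.filter c, Set.Ioo (lo e) (hi e) := by
    intro x hx
    obtain ⟨e, he, h1, h2⟩ := hno' x hx.1 hx.2
    simp only [Set.mem_iUnion, Finset.mem_filter, exists_prop]
    exact ⟨e, ⟨he, by simp only [c, lo, hi]; exact ⟨by linarith [hx.2], by linarith [hx.1]⟩⟩,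
      h1, h2⟩
  have hvol := (MeasureTheory.measure_mono (μ := MeasureTheory.volume) hcover).trans
    (MeasureTheory.measure_biUnion_finset_le _ _)
  simp only [Real.volume_Icc, Real.volume_Ioo] at hvol
  rw [← ENNReal.ofReal_sum_of_nonneg (fun e _ => hlen e),
    ENNReal.ofReal_le_ofReal_iff (Finset.sum_nonneg (fun e _ => hlen e))] at hvol
  have hbound : ∑ e ∈ P.filter c, (hi e - lo e) ≤ ∑ m ∈ Finset.range M, 7 * q m := by
    rw [Finset.sum_filter]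
    apply sum_ite_le_fiber P (fun e => e.1) c (fun e => hi e - lo e) (fun m => 7 * q m) M hM
    intro m
    obtain ⟨hpm, hpm1⟩ := hp m
    have hqm := hq m
    have hqm1 := hq1 m
    set S := P.filter (fun e => c e ∧ e.1 = m) with hS
    have hcard : S.card ≤ ⌈1 / (2 * p m)⌉₊ + 2 := by
      apply card_le_of_sep S (fun e => a m e.2) (-(p m)) (p m) _ hpm
      · intro e he
        obtain ⟨_, ⟨hc1, hc2⟩, hem⟩ := Finset.mem_filter.mp he
        simp only [lo, hi, hem] at hc1 hc2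
        have h4 : q m ^ 4 * p m ≤ 1 * p m :=
          mul_le_mul_of_nonneg_right (by
            have : q m ^ 4 ≤ 1 ^ 4 := pow_le_pow_left₀ hqm (by linarith) 4
            linarith) hpm.le
        have h2 : q m ^ 2 * p m ≤ 1 * p m :=
          mul_le_mul_of_nonneg_right (by
            have : q m ^ 2 ≤ 1 ^ 2 := pow_le_pow_left₀ hqm (by linarith) 2
            linarith) hpm.le
        have hceil : 1 / (2 * p m) ≤ (⌈1 / (2 * p m)⌉₊ : ℝ) := Nat.le_ceil _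
        have h5 : 1 / (2 * p m) * p m = 1 / 2 := by field_simp
        have h6 : 1 / (2 * p m) * p m ≤ (⌈1 / (2 * p m)⌉₊ : ℝ) * p m :=
          mul_le_mul_of_nonneg_right hceil hpm.le
        push_cast
        constructor
        · linarith
        · nlinarith
      · intro e he e' he' hne
        obtain ⟨_, _, hem⟩ := Finset.mem_filter.mp he
        obtain ⟨_, _, hem'⟩ := Finset.mem_filter.mp he'
        apply hsep m e.2 e'.2
        intro h2
        apply hne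
        exact Prod.ext (hem.trans hem'.symm) h2
    calc ∑ e ∈ S, (hi e - lo e) = ∑ e ∈ S, (q m ^ 4 + q m ^ 2) * p m := by
          apply Finset.sum_congr rfl
          intro e he
          obtain ⟨_, _, hem⟩ := Finset.mem_filter.mp he
          simp only [hi, lo, hem]; ring
      _ = S.card * ((q m ^ 4 + q m ^ 2) * p m) := by rw [Finset.sum_const, nsmul_eq_mul]
      _ ≤ ((⌈1 / (2 * p m)⌉₊ : ℝ) + 2) * ((q m ^ 4 + q m ^ 2) * p m) := by
          apply mul_le_mul_of_nonneg_right _ (by positivity)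
          exact_mod_cast hcard
      _ ≤ 7 * q m := by
          have hceil : (⌈1 / (2 * p m)⌉₊ : ℝ) < 1 / (2 * p m) + 1 :=
            Nat.ceil_lt_add_one (by positivity)
          have h5 : 1 / (2 * p m) * p m = 1 / 2 := by field_simp
          have h7 : ((⌈1 / (2 * p m)⌉₊ : ℝ) + 2) * p m ≤ 7 / 2 := by nlinarith
          have a1 : q m ^ 2 ≤ q m := by nlinarith
          have a0 : q m ^ 2 ≤ 1 := by nlinarith
          have a2 : q m ^ 4 ≤ q m ^ 2 := by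
            have e4 : q m ^ 4 = q m ^ 2 * q m ^ 2 := by ring
            rw [e4]; nlinarith [sq_nonneg (q m)]
          have h8 : q m ^ 4 + q m ^ 2 ≤ 2 * q m := by linarith
          have h9 : 0 ≤ q m ^ 4 + q m ^ 2 := by positivity
          calc ((⌈1 / (2 * p m)⌉₊ : ℝ) + 2) * ((q m ^ 4 + q m ^ 2) * p m)
              = (((⌈1 / (2 * p m)⌉₊ : ℝ) + 2) * p m) * (q m ^ 4 + q m ^ 2) := by ring
            _ ≤ 7 / 2 * (q m ^ 4 + q m ^ 2) := mul_le_mul_of_nonneg_right h7 h9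
            _ ≤ 7 / 2 * (2 * q m) := by linarith
            _ = 7 * q m := by ring
  have hfin : ∑ m ∈ Finset.range M, 7 * q m ≤ 7 / 100 := by
    rw [← Finset.mul_sum]; linarith [hsum M]
  linarith

/-- centre of the gap of the triple `(m, n, k)` in the scale variable -/
noncomputable def gU (lam : ℝ) (a : ℕ → ℕ → ℝ) (x : ℝ) (f : ℕ × ℕ × ℕ) : ℝ :=
  lam ^ f.2.1 * (a f.1 f.2.2 - x)

/-- radius of the gap of the triple `(m, n, k)` in the scale variable -/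
noncomputable def gR (lam : ℝ) (rad : ℕ → ℕ → ℝ) (f : ℕ × ℕ × ℕ) : ℝ :=
  lam ^ f.2.1 * rad f.1 f.2.2

/-- separation of the gaps of the pair `(m, n)` in the scale variable -/
noncomputable def gP (lam : ℝ) (p : ℕ → ℝ) (f : ℕ × ℕ × ℕ) : ℝ := lam ^ f.2.1 * p f.1

theorem step_bound (lam : ℝ) (hlam : 1 < lam) (N : ℕ) (hN : 16 ≤ lam ^ N)
    (p q : ℕ → ℝ) (a rad : ℕ → ℕ → ℝ) (x : ℝ)
    (hp : ∀ m, 0 < p m) (hq : ∀ m, 0 ≤ q m ∧ q m ≤ 1 / 100)
    (hrad : ∀ m k, 0 ≤ rad m k ∧ rad m k ≤ q m ^ 4 * p m)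
    (hsep : ∀ m k k', k ≠ k' → p m ≤ |a m k - a m k'|)
    (F : Finset (ℕ × ℕ × ℕ)) (M : ℕ) (hM : ∀ f ∈ F, f.1 < M)
    (t : ℕ) (b : ℝ) :
    ∑ f ∈ F, (if (1 / 4 / 16 ^ (t + 1) ≤ gP lam p f ∧ gP lam p f < 1 / 4 / 16 ^ t ∧
        gU lam a x f - gR lam rad f < b + 1 / 4 / 16 ^ (t + 1) ∧ b < gU lam a x f + gR lam rad f)
        then Real.sqrt (8 * gR lam rad f) * 4 ^ (t + 1) else 0)
      ≤ 2 * (N : ℝ) * ∑ m ∈ Finset.range M, 6 * q m := by
  classical
  have hlam0 : 0 < lam := by linarith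
  have hH : (1:ℝ) / 4 / 16 ^ t = 16 * (1 / 4 / 16 ^ (t + 1)) := by rw [pow_succ]; field_simp
  have hδE : (1:ℝ) / 4 / 16 ^ (t + 1) * (4 ^ t) ^ 2 = 1 / 64 := by
    rw [four_pow_sq, pow_succ]; field_simp; norm_num
  rw [hH]
  generalize (1:ℝ) / 4 / 16 ^ (t + 1) = δ at *
  have h := sum_ite_le_card F (fun f => f.1)
    (fun f => δ ≤ gP lam p f ∧ gP lam p f < 16 * δ ∧ gU lam a x f - gR lam rad f < b + δ ∧
      b < gU lam a x f + gR lam rad f)
    (fun f => Real.sqrt (8 * gR lam rad f) * 4 ^ (t + 1)) (fun m => 6 * q m) (2 * N) M hM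
    (fun m => by have := (hq m).1; positivity) ?_ ?_
  · exact_mod_cast h
  · intro f hfF hc
    obtain ⟨hc1, hc2, hc3, hc4⟩ := hc
    obtain ⟨hq0, hq1⟩ := hq f.1
    obtain ⟨hr0, hr1⟩ := hrad f.1 f.2.2
    have hpm := hp f.1
    simp only [gP, gU, gR] at hc1 hc2 hc3 hc4 ⊢
    have hA : (0:ℝ) < lam ^ f.2.1 := by positivity
    have hE : (0:ℝ) < 4 ^ t := by positivity
    have h4 : (4:ℝ) ^ (t + 1) = 4 * 4 ^ t := by rw [pow_succ]; ring
    have h1 : lam ^ f.2.1 * rad f.1 f.2.2 ≤ q f.1 ^ 4 * (lam ^ f.2.1 * p f.1) := by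
      have := mul_le_mul_of_nonneg_left hr1 hA.le
      linarith
    have hq2 : q f.1 ^ 2 ≤ 1 := by nlinarith
    have hq4 : q f.1 ^ 4 ≤ q f.1 ^ 2 := by
      have e4 : q f.1 ^ 4 = q f.1 ^ 2 * q f.1 ^ 2 := by ring
      rw [e4]; nlinarith [sq_nonneg (q f.1)]
    have h2 : q f.1 ^ 4 * (lam ^ f.2.1 * p f.1) ≤ q f.1 ^ 4 * (16 * δ) :=
      mul_le_mul_of_nonneg_left hc2.le (by positivity)
    have hsq : Real.sqrt (8 * (lam ^ f.2.1 * rad f.1 f.2.2)) ≤ 6 * q f.1 / 4 ^ (t + 1) := by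
      rw [Real.sqrt_le_iff]
      refine ⟨by positivity, ?_⟩
      rw [div_pow, le_div_iff₀ (by positivity), h4]
      have h3 : 8 * (lam ^ f.2.1 * rad f.1 f.2.2) * (4 * 4 ^ t) ^ 2
          ≤ 8 * (q f.1 ^ 4 * (16 * δ)) * (4 * 4 ^ t) ^ 2 := by
        apply mul_le_mul_of_nonneg_right _ (by positivity)
        linarith
      have h5 : 8 * (q f.1 ^ 4 * (16 * δ)) * (4 * 4 ^ t) ^ 2 = 32 * q f.1 ^ 4 := by
        have e : 8 * (q f.1 ^ 4 * (16 * δ)) * (4 * 4 ^ t) ^ 2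
            = 2048 * q f.1 ^ 4 * (δ * (4 ^ t) ^ 2) := by ring
        rw [e, hδE]; ring
      nlinarith
    calc Real.sqrt (8 * (lam ^ f.2.1 * rad f.1 f.2.2)) * 4 ^ (t + 1)
        ≤ 6 * q f.1 / 4 ^ (t + 1) * 4 ^ (t + 1) :=
          mul_le_mul_of_nonneg_right hsq (by positivity)
      _ = 6 * q f.1 := by field_simp
  · intro m
    set S := F.filter (fun f => (δ ≤ gP lam p f ∧ gP lam p f < 16 * δ ∧
      gU lam a x f - gR lam rad f < b + δ ∧ b < gU lam a x f + gR lam rad f) ∧ f.1 = m) with hS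
    have hpm := hp m
    obtain ⟨hq0, hq1⟩ := hq m
    have himg : (S.image (fun f => f.2.1)).card ≤ N := by
      apply card_le_of_nat_window _ id N (fun _ _ _ _ hij => hij)
      intro n hn n' hn'
      obtain ⟨f, hf, rfl⟩ := Finset.mem_image.mp hn
      obtain ⟨f', hf', rfl⟩ := Finset.mem_image.mp hn'
      obtain ⟨_, ⟨hc1, _, _, _⟩, hfm⟩ := Finset.mem_filter.mp hf
      obtain ⟨_, ⟨_, hc2', _, _⟩, hfm'⟩ := Finset.mem_filter.mp hf'
      simp only [gP, hfm] at hc1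
      simp only [gP, hfm'] at hc2'
      simp only [id]
      by_contra hge
      have hge' : f.2.1 + N ≤ f'.2.1 := not_lt.mp hge
      have h1 : lam ^ (f.2.1 + N) ≤ lam ^ f'.2.1 := pow_le_pow_right₀ hlam.le hge'
      have h2 : lam ^ (f.2.1 + N) = lam ^ f.2.1 * lam ^ N := pow_add _ _ _
      have h3 : lam ^ (f.2.1 + N) * p m ≤ lam ^ f'.2.1 * p m :=
        mul_le_mul_of_nonneg_right h1 hpm.le
      have h4 : lam ^ f.2.1 * p m * 16 ≤ lam ^ f.2.1 * p m * lam ^ N :=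
        mul_le_mul_of_nonneg_left hN (by positivity)
      rw [h2] at h3
      nlinarith
    have hfib : ∀ n0 ∈ S.image (fun f => f.2.1), (S.filter (fun f => f.2.1 = n0)).card ≤ 2 := by
      intro n0 _
      have hPp : (0:ℝ) < lam ^ n0 * p m := by positivity
      apply card_le_of_sep _ (gU lam a x) (b - (lam ^ n0 * p m) / 2) (lam ^ n0 * p m) 2 hPp
      · intro f hf
        obtain ⟨hfS, hfn⟩ := Finset.mem_filter.mp hf
        obtain ⟨_, ⟨hc1, hc2, hc3, hc4⟩, hfm⟩ := Finset.mem_filter.mp hfS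
        simp only [gP, gU, gR, hfm, hfn] at hc1 hc2 hc3 hc4 ⊢
        obtain ⟨hr0, hr1⟩ := hrad m f.2.2
        have hA : (0:ℝ) < lam ^ n0 := by positivity
        have h1 : lam ^ n0 * rad m f.2.2 ≤ lam ^ n0 * (q m ^ 4 * p m) :=
          mul_le_mul_of_nonneg_left hr1 hA.le
        have hq4 : q m ^ 4 ≤ 1 / 2 := by
          have h400 : q m ^ 4 ≤ (1 / 100) ^ 4 := pow_le_pow_left₀ hq0 hq1 4
          have : ((1:ℝ) / 400) ^ 4 ≤ 1 / 2 := by norm_num
          linarith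
        have h2 : q m ^ 4 * (lam ^ n0 * p m) ≤ 1 / 2 * (lam ^ n0 * p m) :=
          mul_le_mul_of_nonneg_right hq4 hPp.le
        push_cast
        constructor <;> nlinarith
      · intro f hf f' hf' hne
        obtain ⟨hfS, hfn⟩ := Finset.mem_filter.mp hf
        obtain ⟨_, _, hfm⟩ := Finset.mem_filter.mp hfS
        obtain ⟨hfS', hfn'⟩ := Finset.mem_filter.mp hf'
        obtain ⟨_, _, hfm'⟩ := Finset.mem_filter.mp hfS'
        have hk : f.2.2 ≠ f'.2.2 := by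
          intro hkk
          exact hne (Prod.ext (hfm.trans hfm'.symm) (Prod.ext (hfn.trans hfn'.symm) hkk))
        have hsp := hsep m f.2.2 f'.2.2 hk
        simp only [gU, hfm, hfn, hfm', hfn']
        have e : lam ^ n0 * (a m f.2.2 - x) - lam ^ n0 * (a m f'.2.2 - x)
            = lam ^ n0 * (a m f.2.2 - a m f'.2.2) := by ring
        rw [e, abs_mul, abs_of_pos (by positivity : (0:ℝ) < lam ^ n0)]
        exact mul_le_mul_of_nonneg_left hsp (by positivity)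
    calc S.card ≤ 2 * (S.image (fun f => f.2.1)).card :=
          Finset.card_le_mul_card_image S 2 hfib
      _ ≤ 2 * N := Nat.mul_le_mul_left 2 himg

theorem init_facts (A a0 x rd qq pp : ℝ) (hA : 0 < A) (hpp : 0 < pp) (hq0 : 0 ≤ qq)
    (hq1 : qq ≤ 1 / 100) (hrd0 : 0 < rd) (hrd1 : rd ≤ qq ^ 4 * pp)
    (hmargin : x ≤ a0 - qq ^ 2 * pp ∨ a0 + qq ^ 4 * pp ≤ x)
    (hc2 : A * (a0 - x) - A * rd < 1 / 4 + 1 / 4) (hc3 : 1 / 4 < A * (a0 - x) + A * rd) :
    0 < a0 - x ∧ A * rd ≤ qq ^ 2 * (A * (a0 - x)) ∧ 1 / 6 < A * (a0 - x) ∧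
      A * (a0 - x) < 1 := by
  have hq2 : qq ^ 2 ≤ 1 / 2 := by nlinarith
  rcases hmargin with h | h
  · have hqpos : 0 < qq := by
      rcases hq0.lt_or_eq with h0 | h0
      · exact h0
      · rw [← h0] at hrd1; norm_num at hrd1; linarith
    have hd : qq ^ 2 * pp ≤ a0 - x := by linarith
    have hdpos : 0 < a0 - x := lt_of_lt_of_le (by positivity) hd
    have h1 : A * rd ≤ qq ^ 2 * (A * (a0 - x)) := by
      have e1 : A * rd ≤ A * (qq ^ 4 * pp) := mul_le_mul_of_nonneg_left hrd1 hA.le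
      have e2 : qq ^ 2 * A * (qq ^ 2 * pp) ≤ qq ^ 2 * A * (a0 - x) :=
        mul_le_mul_of_nonneg_left hd (by positivity)
      have e3 : A * (qq ^ 4 * pp) = qq ^ 2 * A * (qq ^ 2 * pp) := by ring
      have e4 : qq ^ 2 * A * (a0 - x) = qq ^ 2 * (A * (a0 - x)) := by ring
      linarith
    have h2 : qq ^ 2 * (A * (a0 - x)) ≤ 1 / 2 * (A * (a0 - x)) :=
      mul_le_mul_of_nonneg_right hq2 (by positivity)
    exact ⟨hdpos, h1, by linarith, by linarith⟩
  · exfalso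
    have h0 : 0 ≤ A * (-(a0 - x + rd)) := mul_nonneg hA.le (by linarith)
    have e : A * (a0 - x) + A * rd = -(A * (-(a0 - x + rd))) := by ring
    linarith

theorem init_bound (lam : ℝ) (hlam : 1 < lam) (N : ℕ) (hN : 16 ≤ lam ^ N)
    (p q : ℕ → ℝ) (a rad : ℕ → ℕ → ℝ) (x : ℝ)
    (hp : ∀ m, 0 < p m) (hq : ∀ m, 0 ≤ q m ∧ q m ≤ 1 / 100)
    (hrad : ∀ m k, 0 ≤ rad m k ∧ rad m k ≤ q m ^ 4 * p m)
    (hsep : ∀ m k k', k ≠ k' → p m ≤ |a m k - a m k'|)
    (F : Finset (ℕ × ℕ × ℕ)) (M : ℕ) (hM : ∀ f ∈ F, f.1 < M)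
    (hpos : ∀ f ∈ F, 0 < rad f.1 f.2.2)
    (hmargin : ∀ f ∈ F, (x ≤ a f.1 f.2.2 - q f.1 ^ 2 * p f.1 ∨
      a f.1 f.2.2 + q f.1 ^ 4 * p f.1 ≤ x)) :
    ∑ f ∈ F, (if ((1 / 4 : ℝ) ≤ gP lam p f ∧ gU lam a x f - gR lam rad f < 1 / 4 + 1 / 4 ∧
        1 / 4 < gU lam a x f + gR lam rad f) then Real.sqrt (8 * gR lam rad f) else 0)
      ≤ (N : ℝ) * 4 * ∑ m ∈ Finset.range M, 3 * q m := by
  classical
  have hlam0 : 0 < lam := by linarith
  have hfacts : ∀ f ∈ F, ((1 / 4 : ℝ) ≤ gP lam p f ∧ gU lam a x f - gR lam rad f < 1 / 4 + 1 / 4 ∧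
      1 / 4 < gU lam a x f + gR lam rad f) →
      0 < a f.1 f.2.2 - x ∧ gR lam rad f ≤ q f.1 ^ 2 * gU lam a x f ∧ 1 / 6 < gU lam a x f ∧
        gU lam a x f < 1 := by
    intro f hf hc
    exact init_facts (lam ^ f.2.1) (a f.1 f.2.2) x (rad f.1 f.2.2) (q f.1) (p f.1)
      (by positivity) (hp _) (hq _).1 (hq _).2 (hpos f hf) (hrad _ _).2 (hmargin f hf)
      hc.2.1 hc.2.2
  have h := sum_ite_le_card F (fun f => f.1)
    (fun f => (1 / 4 : ℝ) ≤ gP lam p f ∧ gU lam a x f - gR lam rad f < 1 / 4 + 1 / 4 ∧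
      1 / 4 < gU lam a x f + gR lam rad f)
    (fun f => Real.sqrt (8 * gR lam rad f)) (fun m => 3 * q m) (N * 4) M hM
    (fun m => by have := (hq m).1; positivity) ?_ ?_
  · exact_mod_cast h
  · intro f hfF hc
    obtain ⟨_, h2, _, h4⟩ := hfacts f hfF hc
    obtain ⟨hq0, hq1⟩ := hq f.1
    show Real.sqrt (8 * gR lam rad f) ≤ 3 * q f.1
    rw [Real.sqrt_le_iff]
    refine ⟨by positivity, ?_⟩
    have h5 : q f.1 ^ 2 * gU lam a x f ≤ q f.1 ^ 2 * 1 :=
      mul_le_mul_of_nonneg_left h4.le (by positivity)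
    nlinarith
  · intro m
    set S := F.filter (fun f => ((1 / 4 : ℝ) ≤ gP lam p f ∧
      gU lam a x f - gR lam rad f < 1 / 4 + 1 / 4 ∧ 1 / 4 < gU lam a x f + gR lam rad f) ∧ f.1 = m) with hS
    have hpm := hp m
    have himg : (S.image (fun f => f.2.2)).card ≤ 4 := by
      apply card_le_of_sep _ (fun k => a m k) x (p m) 4 hpm
      · intro k hk
        obtain ⟨f, hf, rfl⟩ := Finset.mem_image.mp hk
        obtain ⟨hfF, hc, hfm⟩ := Finset.mem_filter.mp hf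
        obtain ⟨h1, _, _, h4⟩ := hfacts f hfF hc
        have hc1 := hc.1
        simp only [gP, gU, hfm] at hc1 h4 h1
        have hA : (0:ℝ) < lam ^ f.2.1 := by positivity
        push_cast
        constructor
        · linarith
        · by_contra hcon
          have hcon' : x + 4 * p m ≤ a m f.2.2 := not_lt.mp hcon
          have h6 : lam ^ f.2.1 * (4 * p m) ≤ lam ^ f.2.1 * (a m f.2.2 - x) :=
            mul_le_mul_of_nonneg_left (by linarith) hA.le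
          linarith
      · intro k _ k' _ hne
        exact hsep m k k' hne
    have hfib : ∀ k0 ∈ S.image (fun f => f.2.2), (S.filter (fun f => f.2.2 = k0)).card ≤ N := by
      intro k0 _
      apply card_le_of_nat_window _ (fun f => f.2.1) N
      · intro f hf f' hf' hnn
        obtain ⟨hfS, hfk⟩ := Finset.mem_filter.mp hf
        obtain ⟨_, _, hfm⟩ := Finset.mem_filter.mp hfS
        obtain ⟨hfS', hfk'⟩ := Finset.mem_filter.mp hf'
        obtain ⟨_, _, hfm'⟩ := Finset.mem_filter.mp hfS'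
        exact Prod.ext (hfm.trans hfm'.symm) (Prod.ext hnn (hfk.trans hfk'.symm))
      · intro f hf f' hf'
        obtain ⟨hfS, hfk⟩ := Finset.mem_filter.mp hf
        obtain ⟨hfF, hc, hfm⟩ := Finset.mem_filter.mp hfS
        obtain ⟨hfS', hfk'⟩ := Finset.mem_filter.mp hf'
        obtain ⟨hfF', hc', hfm'⟩ := Finset.mem_filter.mp hfS'
        obtain ⟨h1, _, h3, _⟩ := hfacts f hfF hc
        obtain ⟨_, _, _, h4'⟩ := hfacts f' hfF' hc'
        simp only [gU, hfm, hfk] at h1 h3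
        simp only [gU, hfm', hfk'] at h4'
        by_contra hge
        have hge' : f.2.1 + N ≤ f'.2.1 := not_lt.mp hge
        have e1 : lam ^ (f.2.1 + N) ≤ lam ^ f'.2.1 := pow_le_pow_right₀ hlam.le hge'
        have e2 : lam ^ (f.2.1 + N) = lam ^ f.2.1 * lam ^ N := pow_add _ _ _
        have e3 := mul_le_mul_of_nonneg_right e1 h1.le
        have e4 : lam ^ f.2.1 * (a m k0 - x) * 16 ≤ lam ^ f.2.1 * (a m k0 - x) * lam ^ N :=
          mul_le_mul_of_nonneg_left hN (by positivity)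
        rw [e2] at e3
        nlinarith
    calc S.card ≤ N * (S.image (fun f => f.2.2)).card :=
          Finset.card_le_mul_card_image S N hfib
      _ ≤ N * 4 := Nat.mul_le_mul_left N himg

/-- Finite version: for finitely many triples `(m, n, k)` there are a base point and a scale
such that each point `x + s / lam ^ n` avoids the gap `(a m k - rad m k, a m k + rad m k)`. -/
theorem finite_copy (lam : ℝ) (hlam : 1 < lam) (N : ℕ) (hN : 16 ≤ lam ^ N)
    (p q : ℕ → ℝ) (a rad : ℕ → ℕ → ℝ)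
    (hp : ∀ m, 0 < p m ∧ p m ≤ 1) (hq : ∀ m, 0 ≤ q m)
    (hrad : ∀ m k, 0 ≤ rad m k ∧ rad m k ≤ q m ^ 4 * p m)
    (hsep : ∀ m k k', k ≠ k' → p m ≤ |a m k - a m k'|)
    (hsumN : ∀ M, ∑ m ∈ Finset.range M, q m ≤ 1 / (100 * N))
    (U : Finset (ℕ × ℕ × ℕ)) :
    ∃ x s : ℝ, 0 ≤ x ∧ x ≤ 1 / 2 ∧ 1 / 4 ≤ s ∧ s ≤ 1 / 2 ∧
      ∀ f ∈ U, rad f.1 f.2.2 ≤ |x + s * (1 / lam) ^ f.2.1 - a f.1 f.2.2| := by
  classical
  have hlam0 : 0 < lam := by linarith
  have hlamne : lam ≠ 0 := hlam0.ne'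
  have hN0 : 0 < N := by
    rcases Nat.eq_zero_or_pos N with h0 | h0
    · rw [h0, pow_zero] at hN; norm_num at hN
    · exact h0
  have hN1 : (1:ℝ) ≤ N := by exact_mod_cast hN0
  have hcN : (1:ℝ) / (100 * N) ≤ 1 / 100 := by
    rw [div_le_div_iff₀ (by positivity) (by norm_num)]; linarith
  have hsum : ∀ M, ∑ m ∈ Finset.range M, q m ≤ 1 / 100 := fun M => (hsumN M).trans hcN
  have hNsum : ∀ M, (N:ℝ) * ∑ m ∈ Finset.range M, q m ≤ 1 / 100 := by
    intro M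
    have h1 := mul_le_mul_of_nonneg_left (hsumN M) (by positivity : (0:ℝ) ≤ N)
    have h2 : (N:ℝ) * (1 / (100 * N)) = 1 / 100 := by field_simp
    linarith
  have hq' : ∀ m, 0 ≤ q m ∧ q m ≤ 1 / 100 :=
    fun m => ⟨hq m, term_le_of_partial_sums q _ hq hsum m⟩
  have hp' : ∀ m, 0 < p m := fun m => (hp m).1
  obtain ⟨x, hx0, hx1, hmargin⟩ := exists_margin_point p q a hp hq hsep hsum
    (U.image (fun f => (f.1, f.2.2)))
  obtain ⟨M, hM⟩ : ∃ M, ∀ f ∈ U.filter (fun f => 0 < rad f.1 f.2.2), f.1 < M :=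
    ⟨(U.filter (fun f => 0 < rad f.1 f.2.2)).sup (fun f => f.1) + 1, fun f hf =>
      Nat.lt_succ_of_le (Finset.le_sup (f := fun f : ℕ × ℕ × ℕ => f.1) hf)⟩
  have hFpos : ∀ f ∈ U.filter (fun f => 0 < rad f.1 f.2.2), 0 < rad f.1 f.2.2 :=
    fun f hf => (Finset.mem_filter.mp hf).2
  have hFmargin : ∀ f ∈ U.filter (fun f => 0 < rad f.1 f.2.2),
      (x ≤ a f.1 f.2.2 - q f.1 ^ 2 * p f.1 ∨ a f.1 f.2.2 + q f.1 ^ 4 * p f.1 ≤ x) := by
    intro f hf
    exact hmargin (f.1, f.2.2) (Finset.mem_image.mpr ⟨f, (Finset.mem_filter.mp hf).1, rfl⟩)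
  have hS := hNsum M
  obtain ⟨s, hs0, hs1, hs⟩ := potential_nested (U.filter (fun f => 0 < rad f.1 f.2.2))
    (gU lam a x) (gR lam rad) (gP lam p) (fun f => Real.sqrt (8 * gR lam rad f)) (1 / 4) (1 / 4)
    (by norm_num)
    (fun f hf => by
      have h1 := hFpos f hf
      apply Real.sqrt_pos.mpr
      simp only [gR]; positivity)
    (fun f hf => by
      have h1 := hp' f.1
      simp only [gP]; positivity)
    (fun f hf => by
      have h1 := hFpos f hf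
      have h2 : 0 ≤ 8 * gR lam rad f := by simp only [gR]; positivity
      rw [Real.sq_sqrt h2]; linarith)
    (by
      have h1 := init_bound lam hlam N hN p q a rad x hp' hq' hrad hsep _ M hM hFpos
        hFmargin
      rw [← Finset.mul_sum] at h1
      linarith)
    (fun t b _ _ => by
      have h1 := step_bound lam hlam N hN p q a rad x hp' hq' hrad hsep
        (U.filter (fun f => 0 < rad f.1 f.2.2)) M hM t b
      rw [← Finset.mul_sum] at h1
      linarith)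
  refine ⟨x, s, hx0, hx1, hs0, by linarith, fun f hf => ?_⟩
  by_cases hr : 0 < rad f.1 f.2.2
  · have h1 := hs f (Finset.mem_filter.mpr ⟨hf, hr⟩)
    simp only [gR, gU] at h1
    have hA : (0:ℝ) < lam ^ f.2.1 := by positivity
    have e : x + s * (1 / lam) ^ f.2.1 - a f.1 f.2.2
        = (s - lam ^ f.2.1 * (a f.1 f.2.2 - x)) * (1 / lam) ^ f.2.1 := by
      rw [one_div, inv_pow]; field_simp; ring
    have hB : (0:ℝ) < (1 / lam) ^ f.2.1 := by positivity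
    rw [e, abs_mul, abs_of_pos hB]
    have e2 : rad f.1 f.2.2 = (lam ^ f.2.1 * rad f.1 f.2.2) * (1 / lam) ^ f.2.1 := by
      rw [one_div, inv_pow]; field_simp
    rw [e2]
    exact mul_le_mul_of_nonneg_right h1 hB.le
  · have h0 : rad f.1 f.2.2 ≤ 0 := not_lt.mp hr
    exact h0.trans (abs_nonneg _)

/-- Sparse separated gap families always leave room for an affine copy of the geometric sequence `{lam ^ (-n)}`. -/
theorem sparse_copy (lam : ℝ) (hlam : 1 < lam) (N : ℕ) (hN : 16 ≤ lam ^ N)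
    (p q : ℕ → ℝ) (a rad : ℕ → ℕ → ℝ)
    (hp : ∀ m, 0 < p m ∧ p m ≤ 1) (hq : ∀ m, 0 ≤ q m)
    (hrad : ∀ m k, 0 ≤ rad m k ∧ rad m k ≤ q m ^ 4 * p m)
    (hsep : ∀ m k k', k ≠ k' → p m ≤ |a m k - a m k'|)
    (hsum : ∀ M, ∑ m ∈ Finset.range M, q m ≤ 1 / (100 * N)) :
    ∃ x s : ℝ, 0 ≤ x ∧ x ≤ 1 / 2 ∧ 1 / 4 ≤ s ∧ s ≤ 1 / 2 ∧
      ∀ n m k, rad m k ≤ |x + s * (1 / lam) ^ n - a m k| := by
  have hK : IsCompact (Set.Icc (0:ℝ) (1 / 2) ×ˢ Set.Icc (1 / 4 : ℝ) (1 / 2)) :=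
    isCompact_Icc.prod isCompact_Icc
  have hC : ∀ f : ℕ × ℕ × ℕ, IsClosed
      {z : ℝ × ℝ | rad f.1 f.2.2 ≤ |z.1 + z.2 * (1 / lam) ^ f.2.1 - a f.1 f.2.2|} :=
    fun f => isClosed_le continuous_const (by fun_prop)
  obtain ⟨z, hz, hzC⟩ := hK.inter_iInter_nonempty
    (fun f : ℕ × ℕ × ℕ =>
      {z : ℝ × ℝ | rad f.1 f.2.2 ≤ |z.1 + z.2 * (1 / lam) ^ f.2.1 - a f.1 f.2.2|}) hC
    (fun U => by
      obtain ⟨x, s, hx0, hx1, hs0, hs1, h⟩ := finite_copy lam hlam N hN p q a rad hp hq hrad hsep hsum U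
      exact ⟨(x, s), ⟨⟨hx0, hx1⟩, ⟨hs0, hs1⟩⟩, Set.mem_iInter₂.mpr (fun f hf => h f hf)⟩)
  refine ⟨z.1, z.2, hz.1.1, hz.1.2, hz.2.1, hz.2.2, fun n m k => ?_⟩
  exact Set.mem_iInter.mp hzC (m, n, k)

end Vale.Agent.H21
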